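import Vale.Agent.P218ND.Brg4

/-! # Divided differences and the linearisation of the Euler-Lagrange density -/

open Set Filter Metric Topology Complex
open scoped ContDiff Matrix

noncomputable section

set_option linter.unusedSectionVars false

namespace Vale.Agent.P218CI

open Vale.Agent.P218VA Vale.Agent.P218CO Vale.Agent.P218ND Vale.Agent.P272.K.LIN
open Vale.Agent.P218GA (Model E3 cx grm)

section dd
variable {D : Type*} [NormedAddCommGroup D] [NormedSpace ℝ D] {d1 d2 : D} {y : D}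

lemma pd_slice {Q : ℂ × D → C3} {t : ℂ} (hQ : DifferentiableAt ℝ Q (t, y)) (v : D) :
    pd (fun z => Q (t, z)) v y = pd Q (0, v) (t, y) := by
  have h := hQ.hasFDerivAt.comp y (hasFDerivAt_prodMk_right (𝕜 := ℝ) t y)
  unfold pd
  rw [show (fun z => Q (t, z)) = Q ∘ fun z => (t, z) from rfl, h.fderiv]
  rfl

lemma cj_slice {Q : ℂ × D → C3} {t : ℂ} (hQ : ContDiffAt ℝ 2 Q (t, y)) :
    cj d1 d2 (fun z => Q (t, z)) y = cj (0, d1) (0, d2) Q (t, y) := by
  have h0 : Tendsto (fun z : D => (t, z)) (𝓝 y) (𝓝 (t, y)) :=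
    (continuous_const.prodMk continuous_id).tendsto y
  have h1 : ∀ v, pd (fun z => Q (t, z)) v =ᶠ[𝓝 y] fun z => pd Q (0, v) (t, z) := fun v =>
    (h0.eventually (ev_diff hQ)).mono fun z hz => pd_slice hz v
  have h2 : ∀ v v', pd (pd (fun z => Q (t, z)) v) v' y = pd (pd Q (0, v)) (0, v') (t, y) :=
    fun v v' => by rw [pd_congr (h1 v), pd_slice (differentiableAt_pd hQ _)]
  simp only [cj, h2, (h1 _).self_of_nhds]

lemma cj_smul (c : ℂ) {f : D → C3} (hf : ContDiffAt ℝ 2 f y) :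
    cj d1 d2 (fun z => c • f z) y = c • cj d1 d2 f y :=
  cj_clm ((c • ContinuousLinearMap.id ℂ C3).restrictScalars ℝ) hf

/-- `Ψ t = Ψ 0 + t Q (t, ·)` with `Q` of class `C²` and `Q (0, ·) = V` -/
structure DD (Ψ : ℂ → D → C3) (V : D → C3) (y : D) : Prop where
  base : ContDiffAt ℝ 2 (Ψ 0) y
  ex : ∃ Q : ℂ × D → C3, ContDiffAt ℝ 2 Q (0, y) ∧
    (∀ᶠ q in 𝓝 ((0 : ℂ), y), Ψ q.1 q.2 = Ψ 0 q.2 + q.1 • Q q) ∧ ∀ᶠ z in 𝓝 y, Q (0, z) = V z

variable {Ψ : ℂ → D → C3} {V : D → C3}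

lemma slice_cd {Q : ℂ × D → C3} {t : ℂ} (hQ : ContDiffAt ℝ 2 Q (t, y)) :
    ContDiffAt ℝ 2 (fun z => Q (t, z)) y :=
  ContDiffAt.comp (g := Q) y hQ (contDiffAt_const.prodMk contDiffAt_id)

lemma tendsto_t (y : D) : Tendsto (fun t : ℂ => (t, y)) (𝓝 0) (𝓝 (0, y)) :=
  (continuous_id.prodMk continuous_const).tendsto 0

lemma DD.cdV (h : DD Ψ V y) : ContDiffAt ℝ 2 V y := by
  obtain ⟨Q, h1, -, h3⟩ := h.ex
  exact (slice_cd h1).congr_of_eventuallyEq (h3.mono fun z hz => hz.symm)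

lemma DD.ev (h : DD Ψ V y) : ∀ᶠ t in 𝓝 (0 : ℂ), ContDiffAt ℝ 2 (Ψ t) y := by
  obtain ⟨Q, h1, h2, -⟩ := h.ex
  filter_upwards [(tendsto_t y).eventually (h1.eventually (by simp)), h2.curry_nhds] with t a b
  exact (h.base.add (contDiffAt_csmul contDiffAt_const (slice_cd a))).congr_of_eventuallyEq b

theorem DD.hasDerivAt (h : DD Ψ V y) :
    HasDerivAt (fun t => cj d1 d2 (Ψ t) y) (cj d1 d2 V y) 0 := by
  obtain ⟨Q, h1, h2, h3⟩ := h.ex
  have h4 : ContinuousAt (cj (0, d1) (0, d2) Q) (0, y) :=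
    (contDiffAt_cj (n := 0) (by simpa using h1)).continuousAt
  have h5 : cj d1 d2 V y = cj (0, d1) (0, d2) Q (0, y) := by
    rw [← cj_slice h1, cj_congr h3]
  have h6 : ∀ᶠ t in 𝓝 (0 : ℂ),
      cj d1 d2 (Ψ t) y = cj d1 d2 (Ψ 0) y + t • cj (0, d1) (0, d2) Q (t, y) := by
    filter_upwards [(tendsto_t y).eventually (h1.eventually (by simp)), h2.curry_nhds] with t a b
    rw [cj_congr b, cj_add h.base (contDiffAt_csmul contDiffAt_const (slice_cd a)),
      cj_smul t (slice_cd a), cj_slice a]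
  rw [hasDerivAt_iff_tendsto_slope_zero, h5]
  refine ((h4.tendsto.comp (tendsto_t y)).mono_left nhdsWithin_le_nhds).congr' ?_
  filter_upwards [nhdsWithin_le_nhds h6, self_mem_nhdsWithin] with t a b
  rw [zero_add, a, add_sub_cancel_left, smul_smul, inv_mul_cancel₀ b, one_smul]
  rfl

lemma DD.congr {Ψ' : ℂ → D → C3} {V' : D → C3} (h : DD Ψ V y)
    (h1 : ∀ᶠ z in 𝓝 y, ∀ t, Ψ' t z = Ψ t z) (h2 : ∀ᶠ z in 𝓝 y, V' z = V z) : DD Ψ' V' y := by
  obtain ⟨Q, a, b, c⟩ := h.ex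
  refine ⟨h.base.congr_of_eventuallyEq (h1.mono fun z hz => hz 0), Q, a, ?_, ?_⟩
  · filter_upwards [b, continuousAt_snd.eventually (p := fun z => ∀ t, Ψ' t z = Ψ t z) h1]
      with q k1 k2
    rw [k2, k2, k1]
  · filter_upwards [c, h2] with z k1 k2
    rw [k1, k2]

lemma DD.lin {f g : D → C3} (hf : ContDiffAt ℝ 2 f y) (hg : ContDiffAt ℝ 2 g y) :
    DD (fun t z => f z + t • g z) g y :=
  ⟨by simpa using hf, fun q => g q.2, ContDiffAt.comp (g := g) _ hg contDiffAt_snd,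
    Eventually.of_forall fun q => by simp, Eventually.of_forall fun _ => rfl⟩

lemma DD.add {Ψ' : ℂ → D → C3} {V' : D → C3} (h : DD Ψ V y) (h' : DD Ψ' V' y) :
    DD (fun t z => Ψ t z + Ψ' t z) (fun z => V z + V' z) y := by
  obtain ⟨Q, a, b, c⟩ := h.ex
  obtain ⟨Q', a', b', c'⟩ := h'.ex
  refine ⟨h.base.add h'.base, fun q => Q q + Q' q, a.add a', ?_, ?_⟩
  · filter_upwards [b, b'] with q k1 k2
    rw [k1, k2, smul_add]
    abel
  · filter_upwards [c, c'] with z k1 k2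
    rw [k1, k2]

lemma DD.smul {c : D → ℂ} (hc : ContDiffAt ℝ 2 c y) (h : DD Ψ V y) :
    DD (fun t z => c z • Ψ t z) (fun z => c z • V z) y := by
  obtain ⟨Q, a, b, d⟩ := h.ex
  refine ⟨contDiffAt_csmul hc h.base, fun q => c q.2 • Q q,
    contDiffAt_csmul (ContDiffAt.comp (g := c) _ hc contDiffAt_snd) a, ?_, ?_⟩
  · filter_upwards [b] with q k1
    rw [k1, smul_add, smul_comm]
  · filter_upwards [d] with z k1
    rw [k1]

end dd

variable {S : Set E3} {w : E3 → ℝ} {δ C : ℝ} {ι κ M : Type} [TopologicalSpace M]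
  [ChartedSpace E2 M] (m : Model S w δ C ι κ M) [Finite ι] [Finite κ] [T2Space M] [RSm E2 M]
  [CompactSpace M]

lemma imm_F {x : M} (hx : x ∈ m.reg) : Imm (fun y => cx (m.F y)) x := m.rimm.imm hx

/-- the linearisation of the Euler-Lagrange density in a parametrisation -/
theorem hasDerivAt_ELM {D : Type*} [NormedAddCommGroup D] [NormedSpace ℝ D] {d1 d2 y : D}
    {e : OpenPartialHomeomorph M E2} {T : D → E2} (he : e ∈ atlas E2 M) (hy : T y ∈ e.target)
    (hT : ContDiffAt ℝ 2 T y) (hj : jac d1 d2 T y ≠ 0) (hx : e.symm (T y) ∈ m.reg)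
    {X : ℂ → M → C3} {V : D → C3} {u : M → ℂ} {W : ℂ → C3}
    (hX : ∀ᶠ t in 𝓝 (0 : ℂ), CkAt 2 (X t) (e.symm (T y)))
    (hD : DD (fun t z => X t (e.symm (T z))) V y)
    (h0 : ∀ᶠ z in 𝓝 y, X 0 (e.symm (T z)) = cx (m.F (e.symm (T z))))
    (hu : CkAt 2 u (e.symm (T y)))
    (huV : ∀ᶠ z in 𝓝 y, u (e.symm (T z)) = cx (m.nu (e.symm (T z))) ⬝ᵥ V z)
    (hW : DifferentiableAt ℂ W 0) :
    HasDerivAt (fun t => -ELM (fun z => cx (m.F z)) (X t) (e.symm (T y)) (W t))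
      (LMc m u (e.symm (T y)) * (cx (m.nu (e.symm (T y))) ⬝ᵥ W 0)) 0 := by
  have hF := imm_F m hx
  have hY : ContinuousAt (fun z => e.symm (T z)) y :=
    ContinuousAt.comp (g := e.symm) (e.symm.continuousAt hy) hT.continuousAt
  have hc : ContDiffAt ℝ 2 (fun z => m.F (e.symm (T z))) y :=
    ContDiffAt.comp (g := cX e m.F) y (((m.ckAt_F hx).of_le two_le_inf).at_target he hy) hT
  have hL : LagF d1 d2 (fun z => cx (m.F (e.symm (T z)))) y ≠ 0 := by
    have h1 := LagF_comp ((hF.ck.at_target he hy).differentiableAt (by norm_num))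
      (hT.differentiableAt (by norm_num)) hj
    have h2 := hF.lag_ne he (e.map_target hy)
    rw [e.right_inv hy] at h2
    simp only [cX] at h1 h2
    rw [h1]
    exact mul_ne_zero (ofReal_ne_zero.2 (abs_ne_zero.2 hj)) h2
  have hg : grm (pd (fun z => m.F (e.symm (T z))) d1 y)
      (pd (fun z => m.F (e.symm (T z))) d2 y) ≠ 0 := fun h => hL (by
    have hd := hc.differentiableAt two_ne_zero
    rw [LagF, pd_clm cx hd, pd_clm cx hd, Lag, ar, P218GA.cx_gram, h]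
    simp)
  have h1 := hasDerivAt_ELj_param m (Y := fun z => e.symm (T z)) hx hY hc hu hD.cdV huV hg
    (hD.hasDerivAt (d1 := d1) (d2 := d2)) (cj_congr h0) hW.hasDerivAt
  refine ((h1.div_const (LagF d1 d2 (fun z => cx (m.F (e.symm (T z)))) y)).neg.congr_deriv
    (by field_simp)).congr_of_eventuallyEq ?_
  filter_upwards [hX] with t ht
  rw [Pi.neg_apply, ← ELF_eq, ← ELM_param he hy hF ht hT hj, mul_div_cancel_right₀ _ hL]

end Vale.Agent.P218CI
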