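import Vale.Agent.P218CI.Exp

/-! # The linearised geometric operator is the stability operator -/

open Set Filter Metric Topology Complex
open scoped ContDiff Matrix

noncomputable section

set_option linter.unusedSectionVars false

namespace Vale.Agent.P218CI

open Vale.Agent.P218VA Vale.Agent.P218CO Vale.Agent.P218XI Vale.Agent.P218MP
open Vale.Agent.P218GC Vale.Agent.P218ND
open Vale.Agent.P272.K.LIN (RSm CkFn)
open Vale.Agent.P218GA (Model E3 cx mat mat_orth cx_dot)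
open Vale.Agent.P218OP (star_cx star_dot)

variable {S : Set E3} {w : E3 → ℝ} {δ C : ℝ} {ι κ M : Type} [TopologicalSpace M]
  [ChartedSpace E2 M] (m : Model S w δ C ι κ M) (ε : ι ⊕ κ → Bool) [Fintype ι] [Fintype κ] (a : ℝ)

/-- the vector field of the tilt -/
def Bv (B : ι × Fin 2 → ℝ) (y : M) : C3 :=
  ∑ j, (((ends m).cut j (a + 1) y : ℝ) : ℂ) • dR m (fun k => (B k : ℂ)) j *ᵥ cx (m.F y)

/-- the normal component of the derivative in `U` -/
def th (x : M) : ℝ := (cx (m.nu x) ⬝ᵥ Tv m ε a x 0 0).re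

/-- the normal component of the tilt -/
def tB (B : ι × Fin 2 → ℝ) (x : M) : ℝ := (cx (m.nu x) ⬝ᵥ Bv m a B x).re

/-- the normal component of the deformation -/
def uu (U : M → ℝ) (B : ι × Fin 2 → ℝ) (x : M) : ℝ := th m ε a x * U x + tB m a B x

variable {a} {x : M} {j : ι ⊕ κ} {p : ℝ × ℝ} {U : M → ℝ} {B : ι × Fin 2 → ℝ}

lemma TE_zero (p : ℝ × ℝ) : TE m ε j p 0 0 = ((sgn (ε j) * P218OP.ks j p.1 : ℝ) : ℂ) •
    (P218OP.fq m j).Xt p.1 p.2 (P218OP.tb m j p) := by
  rcases j with i | k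
  · rw [TE, rotM_zero, P218OP.fq, Sum.elim_inl, Frame.rot_Xt]
    simp [scl, kap, P218OP.ks, tE, ub, P218OP.tb, fr, mul_comm]
  · simp [TE, rotM, scl, P218OP.ks, tE, ub, P218OP.tb, fr, P218OP.fq]

lemma star_TE (p : ℝ × ℝ) : star (TE m ε j p 0 0) = TE m ε j p 0 0 := by
  rw [TE_zero, star_smul, P218OP.star_Xt, RCLike.star_def, conj_ofReal]

lemma star_mv {A : Matrix (Fin 3) (Fin 3) ℂ} (h : ∀ i k, star (A i k) = A i k) {v : C3}
    (hv : star v = v) : star (A *ᵥ v) = A *ᵥ v := by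
  ext i
  have h1 : ∀ k, star (v k) = v k := fun k => congrFun hv k
  simp only [Pi.star_apply, Matrix.mulVec, dot3, star_add, star_mul', h, h1]

lemma star_dR (j : ι ⊕ κ) (v : E3) :
    star (dR m (fun k => (B k : ℂ)) j *ᵥ cx v) = dR m (fun k => (B k : ℂ)) j *ᵥ cx v := by
  rcases j with i | k
  · simp only [dR, Sum.elim_inl, ← Matrix.mulVec_mulVec]
    refine star_mv (fun _ _ => conj_ofReal _) (star_mv (fun a b => ?_)
      (star_mv (fun _ _ => conj_ofReal _) (star_cx v)))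
    fin_cases a <;> fin_cases b <;> simp [skw]
  · simp [dR]

lemma Phi_below (hx : x ∈ (ends m).below a) (u : ℂ) (B : ι × Fin 2 → ℂ) :
    Phi m ε a x u B = cx (m.F x) + u • cx (m.nu x) := by
  simp [Phi, Ends.core_below hx, Ends.cut_below hx]

lemma Tv_below (hx : x ∈ (ends m).below a) (u : ℂ) (B : ι × Fin 2 → ℂ) :
    Tv m ε a x u B = cx (m.nu x) := by
  simp [Tv, Ends.core_below hx, Ends.cut_below hx]

lemma Bv_below (hx : x ∈ (ends m).below (a + 1)) : Bv m a B x = 0 := by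
  simp [Bv, Ends.cut_below hx]

lemma Bv_Y (hp : m.w0 < p.1) : Bv m a B ((ends m).Y j p) =
    ((st (a + 1) p.1 : ℝ) : ℂ) • dR m (fun k => (B k : ℂ)) j *ᵥ XE m ε j p 0 0 := by
  rw [Bv, Ends.sum_of_mem (Ends.Y_mem (𝓔 := ends m) j hp) fun j' h => by
    simp [Ends.cut_of_notMem h], Ends.cut_Y hp, F_Y m ε j hp]

lemma Tv_Y0 (hp : m.w0 < p.1) : Tv m ε a ((ends m).Y j p) 0 0 =
    ((1 - st a p.1 : ℝ) : ℂ) • cx (m.nu ((ends m).Y j p)) +
      ((st a p.1 : ℝ) : ℂ) • TE m ε j p 0 0 := by rw [Tv_Y' m ε j hp, smul_zero]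

lemma nu_dot (hx : x ∈ m.reg) : cx (m.nu x) ⬝ᵥ cx (m.nu x) = 1 := by
  rw [cx_dot, real_inner_self_eq_norm_sq, m.norm_nu hx]
  simp

lemma re_eq {v : C3} (h : star v = v) (n : E3) : (((cx n ⬝ᵥ v).re : ℝ) : ℂ) = cx n ⬝ᵥ v :=
  conj_eq_iff_re.1 (by rw [← RCLike.star_def, star_dot, star_cx, h])

lemma th_eq (hx : x ∈ m.reg) : (th m ε a x : ℂ) = cx (m.nu x) ⬝ᵥ Tv m ε a x 0 0 := by
  refine re_eq ?_ _
  rcases P218OP.reg_cases (𝓔 := ends m) hx a with h | ⟨j, p, hp, -, rfl⟩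
  · rw [Tv_below m ε h, star_cx]
  · rw [Tv_Y0 m ε hp, star_add, star_smul, star_smul, star_cx, star_TE, RCLike.star_def,
      conj_ofReal, conj_ofReal]

lemma tB_eq (x : M) : (tB m a B x : ℂ) = cx (m.nu x) ⬝ᵥ Bv m a B x := by
  refine re_eq ?_ _
  simp only [Bv, star_sum, star_smul, star_dR, RCLike.star_def, conj_ofReal]

lemma uu_eq (hx : x ∈ m.reg) : (uu m ε a U B x : ℂ) =
    cx (m.nu x) ⬝ᵥ ((U x : ℂ) • Tv m ε a x 0 0 + Bv m a B x) := by
  rw [uu, ofReal_add, ofReal_mul, th_eq m ε hx, tB_eq, dotProduct_add, dotProduct_smul,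
    smul_eq_mul, mul_comm]

lemma th_below (hx : x ∈ (ends m).below a) : th m ε a x = 1 := by
  rw [th, Tv_below m ε hx, nu_dot m (Ends.below_reg hx), one_re]

lemma tB_below (hx : x ∈ (ends m).below (a + 1)) : tB m a B x = 0 := by
  simp [tB, Bv_below m hx]

lemma uu_below (hx : x ∈ (ends m).below a) : uu m ε a U B x = U x := by
  rw [uu, th_below m ε hx, tB_below m (Ends.below_mono (by linarith) hx), one_mul, add_zero]

lemma th_Y (hp : m.w0 < p.1) : th m ε a ((ends m).Y j p) =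
    1 - st a p.1 + st a p.1 * (cx (m.nu ((ends m).Y j p)) ⬝ᵥ TE m ε j p 0 0).re := by
  rw [th, Tv_Y0 m ε hp, dotProduct_add, dotProduct_smul, dotProduct_smul,
    nu_dot m (Ends.Y_reg (𝓔 := ends m) j hp), smul_eq_mul, smul_eq_mul, mul_one, add_re, ofReal_re,
    re_ofReal_mul]

lemma th_pos (ho : Orient m ε a) (hx : x ∈ m.reg) : 0 < th m ε a x := by
  rcases P218OP.reg_cases (𝓔 := ends m) hx a with h | ⟨j, p, hp, h, rfl⟩
  · rw [th_below m ε h]; exact one_pos
  · rw [th_Y m ε hp]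
    have h1 := ho j p h
    rcases (st_le_one a p.1).lt_or_eq with h2 | h2
    · nlinarith [mul_nonneg (st_nonneg a p.1) h1.le]
    · rw [h2]; linarith

variable [T2Space M] [RSm E2 M]

lemma ev_below (ha : m.w0 < a) (hx : x ∈ (ends m).below a) : ∀ᶠ z in 𝓝 x, z ∈ (ends m).below a :=
  (Ends.isOpen_below (𝓔 := ends m) ha).mem_nhds hx

lemma ckAt_cx {f : M → E3} {k : WithTop ℕ∞} (h : CkAt k f x) : CkAt k (fun z => cx (f z)) x :=
  fun e he hx => cx.contDiff.contDiffAt.comp _ (h e he hx)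

lemma cd_st (b : ℝ) (p : ℝ × ℝ) : ContDiffAt ℝ ∞ (fun q : ℝ × ℝ => ((st b q.1 : ℝ) : ℂ)) p :=
  (ofRealCLM.contDiff.comp ((contDiff_st b).comp contDiff_fst)).contDiffAt

lemma cd_st' (b : ℝ) (p : ℝ × ℝ) : ContDiffAt ℝ ∞ (fun q : ℝ × ℝ => ((1 - st b q.1 : ℝ) : ℂ)) p :=
  (ofRealCLM.contDiff.comp (contDiff_const.sub ((contDiff_st b).comp contDiff_fst))).contDiffAt

lemma ckAt_Tv (ha : m.w0 < a) (hx : x ∈ m.reg) : CkAt ∞ (fun z => Tv m ε a z 0 0) x := by
  rcases P218OP.reg_cases (𝓔 := ends m) hx a with h | ⟨j, p, hp, -, rfl⟩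
  · exact (ckAt_cx (m.ckAt_nu hx)).congr ((ev_below m ha h).mono fun z hz => Tv_below m ε hz 0 0)
  · refine Ends.ckAt_Y le_rfl hp (((contDiffAt_csmul (cd_st' a p) (P218OP.cd_nuY m j hp)).add
      (contDiffAt_csmul (cd_st a p) (cd_TE0 m ε j hp))).congr_of_eventuallyEq ?_)
    exact (Ends.ev_w0 (𝓔 := ends m) hp).mono fun q hq => Tv_Y0 m ε hq

lemma ckAt_Bv (ha : m.w0 < a) (hx : x ∈ m.reg) : CkAt ∞ (Bv m a B) x := fun e he hx' =>
  ContDiffAt.sum fun j _ => contDiffAt_csmul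
    ((CkFn.ckAt (Ends.cut_ck (𝓔 := ends m) j (a := a + 1) (by change m.w0 < _; linarith))
      x).ofReal e he hx') (cd_mulVec _ (ckAt_cx (m.ckAt_F hx) e he hx'))

lemma ckAt_th (ha : m.w0 < a) (hx : x ∈ m.reg) : CkAt ∞ (th m ε a) x :=
  ckAt_re fun e he hx' =>
    contDiffAt_dot (ckAt_cx (m.ckAt_nu hx) e he hx') (ckAt_Tv m ε ha hx e he hx')

lemma ckAt_tB (ha : m.w0 < a) (hx : x ∈ m.reg) : CkAt ∞ (tB m a B) x :=
  ckAt_re fun e he hx' =>
    contDiffAt_dot (ckAt_cx (m.ckAt_nu hx) e he hx') (ckAt_Bv m ha hx e he hx')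

lemma ckAt_uu (ha : m.w0 < a) (hx : x ∈ m.reg) (hU : CkAt 2 U x) : CkAt 2 (uu m ε a U B) x :=
  fun e he hx' => (((ckAt_th m ε ha hx).of_le two_le_inf e he hx').mul (hU e he hx')).add
    ((ckAt_tB m ha hx).of_le two_le_inf e he hx')

lemma smul_tilt (c t : ℂ) (B : ι × Fin 2 → ℝ) :
    (c • fun k => t * (B k : ℂ)) = (t * c) • fun k => (B k : ℂ) := by
  ext k
  simp only [Pi.smul_apply, smul_eq_mul]
  ring

lemma dd_Y (hp : m.w0 < p.1) (hU : CkAt 2 U ((ends m).Y j p)) :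
    DD (fun t q => surf m ε a (fun y => t * U y) (fun i => t * B i) ((ends m).Y j q))
      (fun q => (U ((ends m).Y j q) : ℂ) • Tv m ε a ((ends m).Y j q) 0 0 +
        Bv m a B ((ends m).Y j q)) p := by
  have h1 := Ends.contDiffAt_Y hp hU.ofReal
  have h2 : ContDiffAt ℝ 2 (fun q => cx (m.F ((ends m).Y j q))) p :=
    cx.contDiff.contDiffAt.comp p ((P218OP.cd_FY m j hp).of_le two_le_inf)
  refine (((DD.lin h2 (contDiffAt_csmul h1 ((P218OP.cd_nuY m j hp).of_le two_le_inf))).smul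
    ((cd_st' a p).of_le two_le_inf)).add ((dd_XE m ε j hp h1 ((cd_st (a + 1) p).of_le two_le_inf)
      fun k => (B k : ℂ)).smul ((cd_st a p).of_le two_le_inf))).congr ?_ ?_
  · filter_upwards [Ends.ev_w0 (𝓔 := ends m) hp] with q hq t
    rw [surf, Phi_Y' m ε j hq, smul_tilt, smul_smul t]
  · filter_upwards [Ends.ev_w0 (𝓔 := ends m) hp] with q hq
    have h3 : ((st a q.1 : ℝ) : ℂ) * (st (a + 1) q.1 : ℝ) = (st (a + 1) q.1 : ℝ) := by
      rcases le_total q.1 (a + 1) with h | h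
      · simp [st_zero h]
      · simp [st_one h]
    rw [Tv_Y0 m ε hq, Bv_Y m ε hq]
    simp only [smul_add, smul_smul, h3, add_assoc, mul_comm]

variable [CompactSpace M]

/-- **The linearised geometric operator.** -/
theorem hasDerivAt_geoN (ha : m.w0 < a) (hx : x ∈ m.reg) (hU : CkAt 2 U x)
    (B : ι × Fin 2 → ℝ) :
    HasDerivAt (fun t : ℂ => geoN m ε a (fun y => t * U y) (fun i => t * B i) x)
      ((th m ε a x * LM m (uu m ε a U B) x : ℝ) : ℂ) 0 := by
  have hu := (ckAt_uu m ε (B := B) ha hx hU).ofReal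
  rw [ofReal_mul, mul_comm, ← LMc_ofReal m hx, th_eq m ε hx]
  rcases P218OP.reg_cases (𝓔 := ends m) hx a with h | ⟨j, p, hp, -, rfl⟩
  · have hc := chart_mem_atlas E2 x
    have hx0 := mem_chart_source E2 x
    set e := chartAt E2 x
    have e1 := e.left_inv hx0
    have h1 := (P218VA.tendsto_symm hx0).eventually (ev_below m ha h)
    have h2 := hU.ofReal.csmul (ckAt_cx ((m.ckAt_nu hx).of_le two_le_inf))
    have h3 := ckAt_cx ((m.ckAt_F hx).of_le two_le_inf)
    have := hasDerivAt_ELM m (d1 := u1) (d2 := u2) (T := id) (y := e x) hc (e.map_source hx0)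
      contDiffAt_id (by simp [jac, pd, u1, u2]) (by rwa [id, e1])
      (X := fun t => surf m ε a (fun y => t * U y) fun i => t * B i)
      (u := fun z => (uu m ε a U B z : ℂ)) (W := fun _ => cx (m.nu x))
      (V := cX e fun z => (U z : ℂ) • cx (m.nu z)) (Eventually.of_forall fun t => by
        rw [id, e1]
        refine (h3.add ((CkFn.ckAt (P272.K.LIN.ckFn_const t) x).csmul h2)).congr ?_
        filter_upwards [ev_below m ha h] with z hz
        rw [surf, Phi_below m ε hz, smul_smul])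
      ((DD.lin (h3 e hc hx0) (h2 e hc hx0)).congr (h1.mono fun z hz t => by
        simp only [surf, id, Phi_below m ε hz, cX, smul_smul]) (Eventually.of_forall fun _ => rfl))
      (h1.mono fun z hz => by simp [surf, Phi_below m ε hz]) (by rwa [id, e1])
      (h1.mono fun z hz => by
        simp [uu_below m ε hz, cX, nu_dot m (Ends.below_reg hz)]) (differentiableAt_const _)
    simpa only [id, e1, geoN, Tv_below m ε h] using this
  · have hD := dd_Y m ε (a := a) (B := B) hp hU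
    have h1 := Ends.ev_w0 (𝓔 := ends m) hp
    have := hasDerivAt_ELM m (d1 := (1, 0)) (d2 := (0, 1)) (T := P218GA.pol) (y := p) (m.mem j)
      (m.pol_mem j hp) P218VA.contDiff_pol.contDiffAt (P218VA.jac_pol_ne p) hx
      (X := fun t => surf m ε a (fun y => t * U y) fun i => t * B i)
      (u := fun z => (uu m ε a U B z : ℂ))
      (W := fun t => Tv m ε a ((ends m).Y j p) (t * U ((ends m).Y j p)) fun i => t * B i)
      (hD.ev.mono fun t ht => Ends.ckAt_Y (𝓔 := ends m) two_le_inf hp ht) hD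
      (h1.mono fun q hq => by
        have := Phi_Y' m ε j (a := a) hq 0 0
        rw [smul_zero, ← F_Y m ε j hq, zero_smul, add_zero, ← add_smul, ← ofReal_add,
          sub_add_cancel, ofReal_one, one_smul] at this
        simp only [surf, zero_mul]
        exact this) hu
      (h1.mono fun q hq => uu_eq m ε (m.pol_mem_reg j hq)) (by
        simp only [Tv_Y' m ε j hp, smul_tilt]
        exact (differentiableAt_const _).add ((diff_TE m ε j hp _ _ _).const_smul
          ((st a p.1 : ℝ) : ℂ)))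
    simp only [zero_mul] at this
    exact this

variable {op : ι ⊕ κ → EndOp} {Nj : OpenPartialHomeomorph M E2 → E2 → J2 ℂ × (ι × Fin 2 → ℂ) → ℂ}
  {G : ι ⊕ κ → ℝ × ℝ → T3 ℂ → ℂ} {f : M → ℝ}

/-- **The dictionary.** -/
theorem linSol_iff (ha : m.w0 < a) : (geoOp m ε a op Nj G).LinSol U B f ↔
    ∀ x ∈ m.reg, CkAt 2 U x ∧ th m ε a x * LM m (uu m ε a U B) x = f x := by
  refine forall₂_congr fun x hx => and_congr_right fun hU => ⟨fun h => ?_, fun h => ?_⟩
  · exact ofReal_injective ((hasDerivAt_geoN m ε ha hx hU B).unique h)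
  · exact h ▸ hasDerivAt_geoN m ε ha hx hU B

end Vale.Agent.P218CI
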