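import Vale.Agent.P218CI.DD
import Vale.Agent.P218GC.Ends
import Vale.Agent.P218OP.Phi

/-! # The first order expansion of the configuration map on an end -/

open Set Filter Metric Topology Complex
open scoped ContDiff Matrix

noncomputable section

set_option linter.unusedSectionVars false

namespace Vale.Agent.P218CI

open Vale.Agent.P218VA Vale.Agent.P218CO Vale.Agent.P218XI Vale.Agent.P218MP
open Vale.Agent.P218GC
open Vale.Agent.P272.K.LIN (RSm)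
open Vale.Agent.P218GA (Model E3 cx mat mat_orth)

/-- the divided difference of the position in the angular coordinate -/
def Xd (F : Frame) (w θ : ℝ) (τ σ : ℂ) : C3 :=
  (4 * rt w / ((1 + τ ^ 2) * (1 + σ ^ 2))) • ((1 - τ * σ) • F.n θ - (τ + σ) • F.γ θ)

lemma X_sub (F : Frame) (w θ : ℝ) {τ σ : ℂ} (h : 1 + τ ^ 2 ≠ 0) (h' : 1 + σ ^ 2 ≠ 0) :
    F.X w θ τ = F.X w θ σ + (τ - σ) • Xd F w θ τ σ := by
  ext i
  simp only [Frame.X_eq, Frame.u, Xd, co, si, Pi.add_apply, Pi.sub_apply, Pi.smul_apply,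
    smul_eq_mul]
  field_simp
  ring

lemma Xd_self (F : Frame) (w θ : ℝ) {σ : ℂ} (h : 1 + σ ^ 2 ≠ 0) :
    Xd F w θ σ σ = F.Xt w θ σ := by
  ext i
  simp only [P218OP.Xt_eq, Frame.v, Xd, co, si, d1, Pi.sub_apply, Pi.smul_apply, smul_eq_mul]
  field_simp
  ring

lemma contDiffAt_Xd (F : Frame) {D : Type*} [NormedAddCommGroup D] [NormedSpace ℝ D]
    {k : WithTop ℕ∞} {w θ : D → ℝ} {τ σ : D → ℂ} {p : D} (hk : k ≤ ∞) (hw : ContDiffAt ℝ k w p)
    (hθ : ContDiffAt ℝ k θ p) (hτ : ContDiffAt ℝ k τ p) (hσ : ContDiffAt ℝ k σ p) (h0 : 0 < w p)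
    (h : 1 + τ p ^ 2 ≠ 0) (h' : 1 + σ p ^ 2 ≠ 0) :
    ContDiffAt ℝ k (fun q => Xd F (w q) (θ q) (τ q) (σ q)) p :=
  contDiffAt_csmul (contDiffAt_cdiv
    (contDiffAt_const.mul (((contDiffAt_rt h0).of_le hk).comp p hw))
    ((contDiffAt_const.add (hτ.pow 2)).mul (contDiffAt_const.add (hσ.pow 2))) (mul_ne_zero h h'))
    ((contDiffAt_csmul (contDiffAt_const.sub (hτ.mul hσ))
      ((F.n_sm.of_le hk).contDiffAt.comp p hθ)).sub
      (contDiffAt_csmul (hτ.add hσ) ((F.γ_sm.of_le hk).contDiffAt.comp p hθ)))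

lemma cd_mulVec {D : Type*} [NormedAddCommGroup D] [NormedSpace ℝ D] {k : WithTop ℕ∞}
    {Y : D → C3} {p : D} (A : Matrix (Fin 3) (Fin 3) ℂ) (h : ContDiffAt ℝ k Y p) :
    ContDiffAt ℝ k (fun q => A *ᵥ Y q) p := (mvL A).contDiff.contDiffAt.comp p h

lemma diff_mulVec {Y : ℂ → C3} {t : ℂ} (A : Matrix (Fin 3) (Fin 3) ℂ)
    (h : DifferentiableAt ℂ Y t) : DifferentiableAt ℂ (fun q => A *ᵥ Y q) t :=
  (LinearMap.toContinuousLinearMap A.mulVecLin).differentiableAt.comp t h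

lemma skw_smul (c b1 b2 : ℂ) : skw (c * b1) (c * b2) = c • skw b1 b2 := by
  ext i j
  fin_cases i <;> fin_cases j <;> simp [skw]

variable {S : Set E3} {w : E3 → ℝ} {δ C : ℝ} {ι κ M : Type} [TopologicalSpace M]
  [ChartedSpace E2 M] (m : Model S w δ C ι κ M) (ε : ι ⊕ κ → Bool) [Fintype ι] [Fintype κ]

/-- the infinitesimal rotations of the ends -/
def dR (B : ι × Fin 2 → ℂ) : ι ⊕ κ → Matrix (Fin 3) (Fin 3) ℂ :=
  Sum.elim (fun i => mat (m.Q i) * skw (B (i, 0)) (B (i, 1)) * (mat (m.Q i))ᵀ) fun _ => 0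

lemma rotM_zero (i : ι) : rotM m (.inl i) 0 = mat (m.Q i) := by
  simp [rotM, P218GC.cay_zero]

lemma dR_mat (B : ι × Fin 2 → ℂ) (i : ι) (X : C3) : dR m B (.inl i) *ᵥ (mat (m.Q i) *ᵥ X) =
    mat (m.Q i) *ᵥ (skw (B (i, 0)) (B (i, 1)) *ᵥ X) := by
  simp only [dR, Sum.elim_inl, Matrix.mulVec_mulVec, Matrix.mul_assoc, mat_orth, Matrix.mul_one]

lemma rot_expand (j : ι ⊕ κ) (B : ι × Fin 2 → ℂ) : ∃ (β : ℂ) (A : Matrix (Fin 3) (Fin 3) ℂ),
    ∀ (c : ℂ) (X : C3), rotM m j (c • B) *ᵥ X = rotM m j 0 *ᵥ X +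
      (c * (1 + c ^ 2 * β)⁻¹) • (dR m B j *ᵥ (rotM m j 0 *ᵥ X) + c • A *ᵥ X) := by
  rcases j with i | k
  · refine ⟨(B (i, 0) ^ 2 + B (i, 1) ^ 2) / 4, (1 / 2 : ℂ) • (mat (m.Q i) *
      (skw (B (i, 0)) (B (i, 1)) * skw (B (i, 0)) (B (i, 1)))), fun c X => ?_⟩
    rw [rotM_zero, dR_mat]
    simp only [rotM, Sum.elim_inl, cay, Pi.smul_apply, smul_eq_mul, skw_smul, Matrix.mul_add,
      Matrix.mul_smul, Matrix.smul_mul, Matrix.add_mulVec, Matrix.smul_mulVec, Matrix.mul_one,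
      Matrix.mulVec_mulVec, smul_add, smul_smul]
    rw [show 1 + ((c * B (i, 0)) ^ 2 + (c * B (i, 1)) ^ 2) / 4 =
      1 + c ^ 2 * ((B (i, 0) ^ 2 + B (i, 1) ^ 2) / 4) by ring]
    congr 2 <;> congr 1 <;> ring
  · exact ⟨0, 0, fun c X => by simp [rotM, dR]⟩

variable (j : ι ⊕ κ) {p : ℝ × ℝ}

lemma tE_zero_ne (hp : m.w0 < p.1) : 1 + tE m ε j p 0 ^ 2 ≠ 0 := tE_ne m ε j hp (by simp)

lemma tE_sub (u : ℂ) : tE m ε j p u - tE m ε j p 0 = scl j p.1 * sgn (ε j) * u := by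
  simp only [tE]; ring

lemma cd_XE0 (hp : m.w0 < p.1) : ContDiffAt ℝ ∞ (fun q => XE m ε j q 0 0) p :=
  cd_mulVec _ ((fr m j).contDiffAt_X le_rfl contDiffAt_fst contDiffAt_snd
    (cd_tE m ε j le_rfl hp contDiffAt_const) (pos_of_lt m hp) (tE_zero_ne m ε j hp))

lemma cd_TE0 (hp : m.w0 < p.1) : ContDiffAt ℝ ∞ (fun q => TE m ε j q 0 0) p := by
  have h1 := cd_tE m ε j (μ := fun _ => 0) le_rfl hp contDiffAt_const
  refine (contDiffAt_csmul ((cd_scl j (pos_of_lt m hp)).mul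
    (contDiffAt_const (c := (sgn (ε j) : ℂ)))) (cd_mulVec (rotM m j 0)
    (contDiffAt_Xd (fr m j) le_rfl contDiffAt_fst contDiffAt_snd h1 h1 (pos_of_lt m hp)
      (tE_zero_ne m ε j hp) (tE_zero_ne m ε j hp)))).congr_of_eventuallyEq ?_
  filter_upwards [Ends.ev_w0 (𝓔 := ends m) hp] with q hq
  rw [Xd_self _ _ _ (tE_zero_ne m ε j hq), TE]

theorem dd_XE (hp : m.w0 < p.1) {U c : ℝ × ℝ → ℂ} (hU : ContDiffAt ℝ 2 U p)
    (hc : ContDiffAt ℝ 2 c p) (B : ι × Fin 2 → ℂ) :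
    DD (fun t q => XE m ε j q (t * U q) ((t * c q) • B))
      (fun q => U q • TE m ε j q 0 0 + c q • dR m B j *ᵥ XE m ε j q 0 0) p := by
  obtain ⟨β, A, h⟩ := rot_expand m j B
  have h0 := pos_of_lt m hp
  have s2 : ∀ {G : Type} [NormedAddCommGroup G] [NormedSpace ℝ G] {f : ℝ × ℝ → G},
      ContDiffAt ℝ 2 f p → ContDiffAt ℝ 2 (fun q : ℂ × ℝ × ℝ => f q.2) (0, p) := fun hf =>
    ContDiffAt.comp (g := _) (f := Prod.snd) _ hf contDiffAt_snd
  have k0 : ContDiffAt ℝ 2 (fun q : ℂ × ℝ × ℝ => tE m ε j q.2 0) (0, p) :=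
    s2 (cd_tE m ε j two_le_inf hp contDiffAt_const)
  have k1 : ContDiffAt ℝ 2 (fun q : ℂ × ℝ × ℝ => scl j q.2.1 * sgn (ε j) * U q.2) (0, p) :=
    s2 ((((cd_scl j h0).of_le two_le_inf).mul contDiffAt_const).mul hU)
  have k2 : ContDiffAt ℝ 2 (fun q : ℂ × ℝ × ℝ => tE m ε j q.2 (q.1 * U q.2)) (0, p) := by
    refine (k0.add (contDiffAt_fst.mul k1)).congr_of_eventuallyEq (Eventually.of_forall fun q => ?_)
    simp only [tE]
    ring
  have n0 := tE_zero_ne m ε j hp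
  have n2 : 1 + tE m ε j p (0 * U p) ^ 2 ≠ 0 := by rwa [zero_mul]
  have k3 : ContDiffAt ℝ 2 (fun q : ℂ × ℝ × ℝ => q.1 * c q.2) (0, p) := contDiffAt_fst.mul (s2 hc)
  have k4 := (fr m j).contDiffAt_X two_le_inf (s2 contDiffAt_fst) (s2 contDiffAt_snd) k2 h0 n2
  have k5 := contDiffAt_Xd (fr m j) two_le_inf (s2 contDiffAt_fst) (s2 contDiffAt_snd) k2 k0 h0
    n2 n0
  refine ⟨by simpa using (cd_XE0 m ε j hp).of_le two_le_inf, _,
    (contDiffAt_csmul k1 (cd_mulVec (rotM m j 0) k5)).add (contDiffAt_csmul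
      ((s2 hc).mul (contDiffAt_cinv (contDiffAt_const.add ((k3.pow 2).mul
        (contDiffAt_const (c := β)))) (c := fun q => 1 + (q.1 * c q.2) ^ 2 * β) (by simp)))
      ((cd_mulVec (dR m B j) (cd_mulVec (rotM m j 0) k4)).add
        (contDiffAt_csmul k3 (cd_mulVec A k4)))), ?_, ?_⟩
  · filter_upwards [(continuousAt_const.add (k2.continuousAt.pow 2)).eventually_ne n2,
      (continuousAt_const.add (k0.continuousAt.pow 2)).eventually_ne n0] with q a b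
    simp only [XE, zero_mul, zero_smul]
    rw [h]
    conv_lhs => enter [1]; rw [X_sub _ _ _ a b, tE_sub, Matrix.mulVec_add, Matrix.mulVec_smul]
    simp only [smul_add, smul_smul, add_assoc]
    congr 2
    · congr 1; ring
    · congr 1 <;> congr 1 <;> ring
  · filter_upwards [Ends.ev_w0 (𝓔 := ends m) hp] with q hq
    simp only [zero_mul, Xd_self _ _ _ (tE_zero_ne m ε j hq), TE, XE, smul_smul]
    simp [mul_comm]

lemma diff_TE (hp : m.w0 < p.1) (u c : ℂ) (B : ι × Fin 2 → ℂ) :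
    DifferentiableAt ℂ (fun t : ℂ => TE m ε j p (t * u) ((t * c) • B)) 0 := by
  obtain ⟨β, A, h⟩ := rot_expand m j B
  have n2 : 1 + tE m ε j p (0 * u) ^ 2 ≠ 0 := by rw [zero_mul]; exact tE_zero_ne m ε j hp
  have k : DifferentiableAt ℂ (fun t : ℂ => tE m ε j p (t * u)) 0 := by unfold tE; fun_prop
  have k1 : DifferentiableAt ℂ (fun t : ℂ => (fr m j).Xt p.1 p.2 (tE m ε j p (t * u))) 0 := by
    simp only [P218OP.Xt_eq, Frame.v, co, si, d1]
    fun_prop (disch := assumption)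
  simp only [TE, h]
  have k2 : DifferentiableAt ℂ (fun t : ℂ => t * c) 0 := by fun_prop
  have k3 : DifferentiableAt ℂ (fun t : ℂ => 1 + (t * c) ^ 2 * β) 0 := by fun_prop
  exact DifferentiableAt.const_smul ((diff_mulVec _ k1).add ((k2.mul (k3.inv (by simp))).smul
    ((diff_mulVec _ (diff_mulVec _ k1)).add (k2.smul (diff_mulVec _ k1)))))
    (scl j p.1 * sgn (ε j))

end Vale.Agent.P218CI
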