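import Vale.Agent.P218CI.Nor
import Vale.Agent.P218KE.Pull
import Vale.Agent.P218SQ.D7d

/-! # Injectivity, separation of growth and solvability of the linearised problem -/

open Set Filter Metric Topology Complex MeasureTheory Asymptotics
open scoped ContDiff Matrix

noncomputable section

set_option linter.unusedSectionVars false

namespace Vale.Agent.P218CI

open Vale.Agent.P218VA Vale.Agent.P218CO Vale.Agent.P218XI Vale.Agent.P218MP Vale.Agent.P218ND
open Vale.Agent.P218GA (Model E3 cx far ev_far ev_gt)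
open Vale.Agent.P218OP (tb ks)
open Vale.Agent.P218GC (abs_sgn)
open Vale.Agent.P218KE (pull pull_reg MSol Mult memLp_of_gr src_pull)
open Vale.Agent.P272.K.LIN (RSm CkFn)

variable {S : Set E3} {w : E3 → ℝ} {δ C : ℝ} {ι κ M : Type} [TopologicalSpace M]
  [ChartedSpace E2 M] (m : Model S w δ C ι κ M) (ε : ι ⊕ κ → Bool) [Fintype ι] [Fintype κ]
  {j : ι ⊕ κ} {p : ℝ × ℝ} {a : ℝ} {B : ι × Fin 2 → ℝ} {U : M → ℝ} {x : M}

lemma abs_th_le (hp : m.w0 < p.1) (h : a + 1 ≤ p.1) :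
    |th m ε a ((ends m).Y j p)| ≤ 4 * √p.1 := by
  have h1 := P218OP.ks_pos j (pos_of_lt m hp)
  have h2 := P218OP.ks_le j (m.one_le.trans hp.le)
  have h3 : 4 * √p.1 / (1 + tb m j p ^ 2) ≤ 4 * √p.1 :=
    div_le_self (by positivity) (by nlinarith [sq_nonneg (tb m j p)])
  rw [th_end m ε j hp h, abs_mul, abs_mul, abs_mul, abs_sgn, one_mul, abs_of_pos h1,
    abs_of_nonneg (by positivity)]
  exact (mul_le_of_le_one_right (by positivity) (abs_n1 m j hp)).trans
    ((mul_le_of_le_one_left (by positivity) h2).trans h3)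

lemma abs_comb {r s c d K : ℝ} (hr : |r| ≤ K) (hs : |s| ≤ K) (hc : |c| ≤ 1) (hd : |d| ≤ 1) :
    |r * c + s * d| ≤ 2 * K := by
  have h1 := mul_le_mul hr hc (abs_nonneg _) ((abs_nonneg _).trans hr)
  have h2 := mul_le_mul hs hd (abs_nonneg _) ((abs_nonneg _).trans hs)
  rw [← abs_mul] at h1 h2
  linarith [abs_add_le (r * c) (s * d)]

lemma abs_tB_le (hp : m.w0 < p.1) (h : a + 2 ≤ p.1) :
    |tB m a B ((ends m).Y j p)| ≤ 8 * ‖B‖ * √p.1 := by
  rcases j with i | k
  · have h1 : ∀ k, |B k| ≤ ‖B‖ := norm_le_pi_norm B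
    have h2 : |b1 B i p.2| ≤ 2 * ‖B‖ :=
      abs_comb (h1 _) (h1 _) (Real.abs_cos_le_one _) (Real.abs_sin_le_one _)
    have h3 : |b2 B i p.2| ≤ 2 * ‖B‖ := by
      rw [b2, sub_eq_add_neg, ← mul_neg]
      exact abs_comb (h1 _) (h1 _) (Real.abs_cos_le_one _)
        ((abs_neg _).trans_le (Real.abs_sin_le_one _))
    have h4 : |(1 - tb m (.inl i) p ^ 2) / (1 + tb m (.inl i) p ^ 2) * n2 m (.inl i) p| ≤ 1 := by
      rw [abs_mul, abs_div, abs_of_pos (a := 1 + _) (by positivity)]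
      refine mul_le_one₀ (div_le_one_of_le₀ (abs_le.2 ⟨by linarith, ?_⟩) (by positivity))
        (abs_nonneg _) (abs_n2 m _ hp)
      linarith [sq_nonneg (tb m (.inl i) p)]
    have h5 := abs_comb h2 h3 (abs_n1 m (.inl i) hp) h4
    rw [tB_cyl m i hp h, abs_mul, abs_of_nonneg (by positivity), mul_assoc (_ / _),
      mul_left_comm (_ / _)]
    nlinarith [mul_le_mul_of_nonneg_left h5 (Real.sqrt_nonneg p.1)]
  · rw [tB_cone m k hp, abs_zero]
    positivity

lemma gr_uu (ha : m.w0 < a) {q : ℝ} (hq : 0 ≤ q) (h : (ends m).Gr q U) :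
    (ends m).Gr (q + 1 / 2) (uu m ε a U B) := by
  obtain ⟨K, W, h⟩ := h
  refine ⟨4 * |K| + 8 * ‖B‖, max W (a + 2), fun j p hp => ?_⟩
  have h1 : a + 2 ≤ p.1 := (le_max_right _ _).trans hp
  have h2 : m.w0 < p.1 := by linarith
  have h3 : 1 ≤ p.1 ^ q := Real.one_le_rpow (m.one_le.trans h2.le) hq
  have h4 := mul_le_mul (abs_th_le m ε (j := j) (a := a) h2 (by linarith))
    ((h j p ((le_max_left _ _).trans hp)).trans
      (mul_le_mul_of_nonneg_right (le_abs_self K) (by positivity))) (abs_nonneg _) (by positivity)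
  have h5 := abs_tB_le m (j := j) (B := B) h2 h1
  rw [Real.rpow_add (pos_of_lt m h2), ← Real.sqrt_eq_rpow, uu]
  refine (abs_add_le _ _).trans ?_
  rw [abs_mul]
  nlinarith [mul_le_mul_of_nonneg_left h3 (show 0 ≤ 8 * ‖B‖ * √p.1 by positivity)]

/-- the factor is bounded above and below on the cylindrical ends -/
theorem th_cyl (ho : Orient m ε a) : ∃ W, ∀ i (p : ℝ × ℝ), W ≤ p.1 →
    1 / 45 ≤ th m ε a ((ends m).Y (.inl i) p) ∧ th m ε a ((ends m).Y (.inl i) p) ≤ 2 := by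
  obtain ⟨W, h⟩ := ev_far.1 ((eventually_all.2 fun i => ev_cyl m i).and (ev_gt (a + 1)))
  refine ⟨W, fun i p hp => ?_⟩
  obtain ⟨h1, -, -, h2, h3, -⟩ := (h p hp).1 i
  have h4 : 1 ≤ √2 := Real.one_le_sqrt.2 one_le_two
  have h5 : √2 ≤ 2 := Real.sqrt_le_iff.2 ⟨zero_le_two, by norm_num⟩
  have h6 : 1 / 5 ≤ √2 / (1 + tb m (.inl i) p ^ 2) := by
    rw [le_div_iff₀ (by positivity)]
    linarith
  have h7 : √2 / (1 + tb m (.inl i) p ^ 2) ≤ 2 :=
    (div_le_self (by positivity) (by nlinarith [sq_nonneg (tb m (.inl i) p)])).trans h5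
  rw [← abs_of_pos (th_pos m ε ho (Ends.Y_reg (𝓔 := ends m) _ h1)), th_cyl_eq m ε i h1 (h p hp).2.le,
    abs_mul, abs_mul, abs_sgn, one_mul, abs_of_nonneg (by positivity)]
  exact ⟨by nlinarith [mul_le_mul h6 h3 (by norm_num) (by positivity)],
    (mul_le_of_le_one_right (by positivity) (abs_n1 m _ h1)).trans h7⟩

/-- a bounded function does not compensate a tilt -/
lemma tilt_zero (ha : m.w0 < a) (ho : Orient m ε a) (hU : (ends m).Gr 0 U)
    (h : ∀ x ∈ m.reg, uu m ε a U B x = 0) : B = 0 := by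
  obtain ⟨K, W, hK⟩ := hU
  have key : ∀ i, (⟨B (i, 0), B (i, 1)⟩ : ℂ) = 0 := fun i => by
    by_contra hz
    set z : ℂ := ⟨B (i, 0), B (i, 1)⟩
    have h0 := norm_pos_iff.2 hz
    have e1 : b1 B i z.arg = ‖z‖ := by
      rw [b1, Complex.cos_arg hz, Complex.sin_arg]
      field_simp
      rw [Complex.sq_norm, normSq_apply]
    have e2 : b2 B i z.arg = 0 := by
      rw [b2, Complex.cos_arg hz, Complex.sin_arg]
      ring
    obtain ⟨t, h1, h2, h3⟩ := ((eventually_ge_atTop W).and ((eventually_ge_atTop (a + 2)).and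
      (Real.tendsto_sqrt_atTop.eventually_gt_atTop (K / ‖z‖)))).exists
    have h4 : m.w0 < (t, z.arg).1 := by dsimp only; linarith
    have h5 := Ends.Y_reg (𝓔 := ends m) (.inl i) h4
    have h6 := h _ h5
    have h7 := th_pos m ε ho h5
    have h8 := hK (.inl i) (t, z.arg) h1
    rw [uu, tB_cyl m i h4 h2, e1, e2] at h6
    rw [th_cyl_eq m ε i h4 (by dsimp only; linarith)] at h6 h7
    have h9 : n1 m (.inl i) (t, z.arg) ≠ 0 := fun e => by simp [e] at h7
    have h10 : 2 * √t * ‖z‖ = -(sgn (ε (.inl i)) * (√2 / (1 + tb m (.inl i) (t, z.arg) ^ 2)) *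
        U ((ends m).Y (.inl i) (t, z.arg))) := mul_right_cancel₀ h9 (by linear_combination h6)
    have h11 : √2 / (1 + tb m (.inl i) (t, z.arg) ^ 2) ≤ 2 :=
      (div_le_self (by positivity) (by nlinarith [sq_nonneg (tb m (.inl i) (t, z.arg))])).trans
        (Real.sqrt_le_iff.2 ⟨zero_le_two, by norm_num⟩)
    have h12 := h10.le.trans (neg_le_abs _)
    rw [abs_mul, abs_mul, abs_sgn, one_mul, abs_of_nonneg (by positivity)] at h12
    rw [Real.rpow_zero, mul_one] at h8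
    rw [div_lt_iff₀ h0] at h3
    linarith [mul_le_mul h11 h8 (abs_nonneg _) zero_le_two]
  ext ⟨i, k⟩
  fin_cases k
  exacts [congrArg re (key i), congrArg im (key i)]

lemma tB_zero (x : M) : tB m a 0 x = 0 := by
  have h : ∀ j, dR m (fun _ => 0) j = 0 := by
    rintro (i | k)
    · have := skw_smul 0 0 0
      simp only [mul_zero, zero_smul] at this
      simp [dR, this]
    · rfl
  simp [tB, Bv, h]

variable [T2Space M] [RSm E2 M] [CompactSpace M] [MeasurableSpace M] [BorelSpace M]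
  {op : ι ⊕ κ → EndOp} {Nj : OpenPartialHomeomorph M E2 → E2 → J2 ℂ × (ι × Fin 2 → ℂ) → ℂ}
  {G : ι ⊕ κ → ℝ × ℝ → T3 ℂ → ℂ} {n : ℕ} {e : Fin n ⊕ ι → E3 → ℝ} {l : Fin n ⊕ ι → ℝ}

variable {m} in
lemma th_mul {f : M → ℝ} (hf : (ends m).Src a f) (x : M) : th m ε a x * f x = f x := by
  by_cases h : x ∈ (ends m).below a
  · rw [th_below m ε h, one_mul]
  · rw [hf.2 x h, mul_zero]

variable {m} in
lemma mul_uu {f : M → ℝ} (hf : (ends m).Src a f) (x : M) :
    f x * uu m ε a U B x = f x * U x := by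
  by_cases h : x ∈ (ends m).below a
  · rw [uu_below m ε h]
  · rw [hf.2 x h, zero_mul, zero_mul]

variable {m}

lemma mSol_of (h : Mult m a e) (ho : Orient m ε a)
    (hs : (geoOp m ε a op Nj G).LinSol U B fun x => ∑ k, l k * pull m (e k) x) :
    MSol m e (uu m ε a U B) l := fun x hx => by
  obtain ⟨h1, h2⟩ := (linSol_iff m ε h.lev).1 hs x hx
  refine ⟨ckAt_uu m ε h.lev hx h1, mul_left_cancel₀ (th_pos m ε ho hx).ne' ?_⟩
  rw [h2, Finset.mul_sum]
  exact Finset.sum_congr rfl fun k _ => by rw [mul_left_comm, th_mul ε (h.src k)]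

/-- **Injectivity of the linearised problem.** -/
theorem linInj (h : Mult m a e) (ho : Orient m ε a) : (geoOp m ε a op Nj G).LinInj m.mu0
    (fun k => pull m (e k)) fun i => pull m (e (.inl i)) := fun U B l hs hU h0 => by
  obtain ⟨h1, h2⟩ := h.A' (q := 0 + 1 / 2) (by norm_num) (mSol_of ε h ho hs)
    (gr_uu m ε h.lev le_rfl hU) fun i => by simp only [mul_uu ε (h.src _), h0 i]
  obtain rfl := tilt_zero m ε h.lev ho hU h2
  refine ⟨fun x hx => ?_, rfl, h1⟩
  have h3 := h2 x hx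
  rw [uu, tB_zero, add_zero] at h3
  exact (mul_eq_zero.1 h3).resolve_left (th_pos m ε ho hx).ne'

/-- **Separation of growth.** -/
theorem sep (h : Mult m a e) (ho : Orient m ε a) :
    P218SQ.D7.Sep (geoOp m ε a op Nj G) m.mu0 fun k => pull m (e k) := fun U B l hs hU h0 => by
  obtain ⟨-, h2⟩ := h.B' (mSol_of ε h ho hs) (gr_uu m ε h.lev zero_le_one hU)
    fun i => by simp only [mul_uu ε (h.src _), h0 i]
  obtain ⟨W, hW⟩ := th_cyl m ε ho
  refine ⟨360 * ‖B‖, max W (a + 2), fun j p hp => ?_⟩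
  have h3 : a + 2 ≤ p.1 := (le_max_right _ _).trans hp
  have h4 : m.w0 < p.1 := by linarith [h.lev]
  have h5 := Ends.Y_reg (𝓔 := ends m) j h4
  have h6 := eq_neg_of_add_eq_zero_left (h2 _ h5)
  change |U ((ends m).Y j p)| ≤ _
  rw [← Real.sqrt_eq_rpow]
  rcases j with i | k
  · have h7 := abs_tB_le m (j := .inl i) (B := B) h4 h3
    rw [← abs_neg, ← h6, abs_mul, abs_of_pos (th_pos m ε ho h5)] at h7
    nlinarith [mul_le_mul_of_nonneg_right (hW i p ((le_max_left _ _).trans hp)).1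
      (abs_nonneg (U ((ends m).Y (.inl i) p)))]
  · rw [tB_cone m k h4, neg_zero] at h6
    rw [(mul_eq_zero.1 h6).resolve_left (th_pos m ε ho h5).ne', abs_zero]
    positivity

lemma src_th (ha : m.w0 < a) {W : ℝ} {f : M → ℝ} (hf : (ends m).Src W f) :
    (ends m).Src W fun x => th m ε a x * f x := by
  refine ⟨fun e he x => ?_, fun x hx => by simp only [hf.2 x hx, mul_zero]⟩
  change x ∈ e.source → ContDiffAt ℝ 1 (cX e fun x => th m ε a x * f x) (e x)
  revert e
  change CkAt 1 (fun x => th m ε a x * f x) x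
  by_cases hr : x ∈ m.reg
  · exact fun e he hx => ((ckAt_th m ε ha hr).of_le one_le_inf e he hx).mul (hf.1 e he x hx)
  · obtain ⟨j, hj⟩ : ∃ j, x = (m.φ j).symm 0 := by
      by_contra h
      exact hr fun j hj => h ⟨j, hj⟩
    refine (CkFn.ckAt (P272.K.LIN.ckFn_const (0 : ℝ)) x).congr ?_
    have h2 : x ∈ (m.φ j).source := hj ▸ (m.φ j).map_target (m.zero_mem j)
    have h3 : m.φ j x ∈ ball (0 : E2) (Real.exp (-W)) := by
      rw [hj, (m.φ j).right_inv (m.zero_mem j)]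
      exact mem_ball_self (Real.exp_pos _)
    filter_upwards [((m.φ j).isOpen_inter_preimage isOpen_ball).mem_nhds ⟨h2, h3⟩] with z hz
    rw [hf.2 z fun h => absurd (h j hz.1) (not_lt.2 (mem_ball_zero_iff.1 hz.2).le), mul_zero]

/-- **Solvability** of the stability operator up to the multipliers. -/
theorem solv_of (h : Mult m a e) (ho : Orient m ε a)
    (hs : ∀ W, ∃ W', W ≤ W' ∧ ∀ f, (ends m).Src W' f → ∃ U B, ∃ l : Fin n ⊕ ι → ℝ,
      (geoOp m ε a op Nj G).LinSol U B (fun x => f x + ∑ k, l k * pull m (e k) x) ∧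
        (ends m).Gr 0 U) (g : E3 → ℝ) (hg : ContDiff ℝ ∞ g) (hc : HasCompactSupport g) :
    ∃ (u : M → ℝ) (l : Fin n ⊕ ι → ℝ),
      (∀ x ∈ m.reg, CkAt 2 u x ∧ LM m u x = g (m.F x) + ∑ k, l k * e k (m.F x)) ∧
        MemLp u 2 m.mu0 := by
  obtain ⟨R, hR⟩ := hc.isCompact.isBounded.subset_ball 0
  obtain ⟨W, h1, h2⟩ := hs (max a (R ^ 2 / 4))
  have h3 : m.w0 < W := h.lev.trans_le ((le_max_left _ _).trans h1)
  obtain ⟨U, B, l, h4, h5⟩ := h2 _ (src_th ε h.lev (src_pull m h3 (hg.of_le one_le_inf)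
    fun z hz => image_eq_zero_of_notMem_tsupport fun k => by
      have := mem_ball_zero_iff.1 (hR k)
      nlinarith [norm_nonneg z, (le_max_right _ _).trans h1]))
  have h6 := fun x hx => ((linSol_iff m ε h.lev).1 h4 x hx).1
  refine ⟨uu m ε a U B, l, fun x hx => ⟨ckAt_uu m ε h.lev hx (h6 x hx),
    mul_left_cancel₀ (th_pos m ε ho hx).ne' ?_⟩, memLp_of_gr m (fun x hx =>
      (ckAt_uu m ε h.lev hx (h6 x hx)).continuousAt.continuousWithinAt)
      (gr_uu m ε h.lev le_rfl h5)⟩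
  rw [((linSol_iff m ε h.lev).1 h4 x hx).2, mul_add, pull_reg m g hx, Finset.mul_sum]
  exact congrArg _ (Finset.sum_congr rfl fun k _ => by
    rw [mul_left_comm, ← pull_reg m (e k) hx, th_mul ε (h.src k)])

/-- solutions of the linearised equation on an end are Jacobi fields -/
theorem LM_of_linEnd (ha : m.w0 < a) (ho : Orient m ε a) {s : ℝ}
    (hc : (geoOp m ε a op Nj G).Good s) {y : ℝ × ℝ → ℝ}
    (hy : LinEnd ((op j).orient (ε j)) s 0 fun p => (y p : ℂ)) (hp : s + 4 ≤ p.1) :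
    CkAt 2 (fun x => th m ε a x * (ends m).onEnd j y x) ((ends m).Y j p) ∧
      LM m (fun x => th m ε a x * (ends m).onEnd j y x) ((ends m).Y j p) = 0 := by
  have h0 : m.w0 < p.1 := by linarith [show m.w0 < s from hc.lev]
  have hx := Ends.Y_reg (𝓔 := ends m) j h0
  have h1 : Per y := fun a b => ofReal_injective (hy.per a b)
  have h2 : ∀ᶠ q in 𝓝 p, (ends m).onEnd j y ((ends m).Y j q) = y q :=
    (Ends.ev_w0 (𝓔 := ends m) h0).mono fun q hq => Ends.onEnd_Y h1 hq
  have h3 := hy.cd p (by linarith)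
  have hU : CkAt 2 ((ends m).onEnd j y) ((ends m).Y j p) := Ends.ckAt_Y two_le_inf h0
    ((reCLM.contDiff.contDiffAt.comp p h3).congr_of_eventuallyEq h2)
  have e : uu m ε a ((ends m).onEnd j y) 0 = fun x => th m ε a x * (ends m).onEnd j y x :=
    funext fun x => by rw [uu, tB_zero, add_zero]
  have h4 := hasDerivAt_geoN m ε ha hx hU 0
  have h5 := hy.eq p (by linarith)
  simp only [Pi.zero_apply, smul_zero, EndOp.END_zero _ hp] at h5
  have h6 : Tendsto (fun t : ℂ => G j p (t • pj (fun p => (y p : ℂ)) p).1) (𝓝 0) (𝓝 (G j p 0)) :=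
    (hc.contG j p (by linarith)).tendsto.comp (Continuous.tendsto'
      (f := fun t : ℂ => (p, (t • pj (fun p => (y p : ℂ)) p).1)) (by fun_prop) _ _ (by simp))
  have h7 : HasDerivAt (fun t : ℂ => G j p (t • pj (fun p => (y p : ℂ)) p).1 *
      ((op j).orient (ε j)).E p (t • pj (fun p => (y p : ℂ)) p)) 0 0 := by
    have h8 : ((op j).orient (ε j)).E p 0 = 0 := (hc.ops j).base p (by linarith)
    rw [hasDerivAt_iff_isLittleO] at h5 ⊢
    simp only [zero_smul, h8, mul_zero, smul_zero, sub_zero] at h5 ⊢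
    simpa using (h6.isBigO_one ℂ).mul_isLittleO h5
  have h9 := h4.unique (h7.congr_of_eventuallyEq (by
    have k : Tendsto (fun t : ℂ => ‖t * ((ends m).onEnd j y ((ends m).Y j p) : ℝ)‖) (𝓝 0) (𝓝 0) :=
      Continuous.tendsto' (by fun_prop) _ _ (by simp)
    filter_upwards [k.eventually (eventually_lt_nhds one_pos)] with t ht
    have k1 : pj (fun q => t * ((ends m).onEnd j y ((ends m).Y j q) : ℝ)) p =
        t • pj (fun p => (y p : ℂ)) p := by
      rw [← cj_csmul t h3]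
      exact cj_congr (h2.mono fun q hq => by simp only [hq, smul_eq_mul])
    rw [← k1]
    exact hc.ends j p (by linarith) _ _ (fun e he hx => contDiffAt_const.mul (hU.ofReal e he hx)) ht
      (by simp [← Pi.zero_def])))
  rw [ofReal_eq_zero, e] at h9
  exact ⟨e ▸ ckAt_uu m ε ha hx hU, (mul_eq_zero.1 h9).resolve_left (th_pos m ε ho hx).ne'⟩

end Vale.Agent.P218CI
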