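import Vale.Agent.P218CI.Dict

/-! # The normal in the adapted frames of the ends -/

open Set Filter Metric Topology Complex
open scoped ContDiff Matrix RealInnerProductSpace

noncomputable section

set_option linter.unusedSectionVars false

namespace Vale.Agent.P218CI

open Vale.Agent.P218VA Vale.Agent.P218CO Vale.Agent.P218XI Vale.Agent.P218MP
open Vale.Agent.P218GA (Model E3 cx mat mat_orth cx_dot cx_isometry inner_grad_pd dw dth far ev_far
  ev_gt toZero_iff)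
open Vale.Agent.P218OP (star_cx star_dot fq tb ks ea eb star_co star_si)
open Vale.Agent.P218EN (xf)

variable {S : Set E3} {w : E3 → ℝ} {δ C : ℝ} {ι κ M : Type} [TopologicalSpace M]
  [ChartedSpace E2 M] (m : Model S w δ C ι κ M) (ε : ι ⊕ κ → Bool) [Fintype ι] [Fintype κ]
  (j : ι ⊕ κ) (p : ℝ × ℝ)

/-- the radial component of the normal -/
def n0 : ℝ := (cx (m.nu ((ends m).Y j p)) ⬝ᵥ (fq m j).u p.2 (tb m j p)).re

/-- the angular component of the normal -/
def n1 : ℝ := (cx (m.nu ((ends m).Y j p)) ⬝ᵥ (fq m j).v p.2 (tb m j p)).re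

/-- the tangential component of the normal -/
def n2 : ℝ := (cx (m.nu ((ends m).Y j p)) ⬝ᵥ (fq m j).T p.2).re

lemma star_T (θ : ℝ) : star ((fq m j).T θ) = (fq m j).T θ := by
  rcases j with i | k
  · refine star_mv (A := mat _) (v := tthc θ) (fun _ _ => conj_ofReal _) ?_
    ext a
    fin_cases a <;> simp [tthc, -ofReal_sin, -ofReal_cos]
  · exact star_cx _

lemma nu_R (y : C3) : cx (m.nu ((ends m).Y j p)) ⬝ᵥ (fq m j).R p.2 (tb m j p) *ᵥ y =
    y 0 * n0 m j p + y 1 * n1 m j p + y 2 * n2 m j p := by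
  rw [n0, n1, n2, re_eq, re_eq, re_eq (star_T m j _), Frame.R_mulVec]
  · simp only [dotProduct_add, dotProduct_smul, smul_eq_mul]
  · simp only [Frame.v, star_sub, star_smul, star_co, star_si, P218OP.star_γ, P218OP.star_n,
      RCLike.star_def, conj_ofReal]
  · simp only [Frame.u, star_add, star_smul, star_co, star_si, P218OP.star_γ, P218OP.star_n,
      RCLike.star_def, conj_ofReal]

variable {p} {a : ℝ} {B : ι × Fin 2 → ℝ}

lemma sq_sum (hp : m.w0 < p.1) : n0 m j p ^ 2 + n1 m j p ^ 2 + n2 m j p ^ 2 = 1 := by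
  have h := mul_eq_one_comm.1 ((fq m j).R_orth p.2 (one_add_sq_ne (tb m j p)))
  have h1 := nu_R m j p (((fq m j).R p.2 (tb m j p))ᵀ *ᵥ cx (m.nu ((ends m).Y j p)))
  rw [Matrix.mulVec_mulVec, h, Matrix.one_mulVec, nu_dot m (Ends.Y_reg (𝓔 := ends m) j hp)] at h1
  have h2 : ∀ k, (((fq m j).R p.2 (tb m j p))ᵀ *ᵥ cx (m.nu ((ends m).Y j p))) k =
      cx (m.nu ((ends m).Y j p)) ⬝ᵥ (fq m j).R p.2 (tb m j p) *ᵥ Pi.single k 1 := fun k => by
    rw [Matrix.dotProduct_mulVec, ← Matrix.mulVec_transpose, dotProduct_single, mul_one]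
  simp only [h2, nu_R] at h1
  apply ofReal_injective
  simpa [sq] using h1.symm

lemma abs_n1 (hp : m.w0 < p.1) : |n1 m j p| ≤ 1 :=
  abs_le_one_iff_mul_self_le_one.2 (by
    nlinarith [sq_sum m j hp, sq_nonneg (n0 m j p), sq_nonneg (n2 m j p)])

lemma abs_n2 (hp : m.w0 < p.1) : |n2 m j p| ≤ 1 :=
  abs_le_one_iff_mul_self_le_one.2 (by
    nlinarith [sq_sum m j hp, sq_nonneg (n0 m j p), sq_nonneg (n1 m j p)])

lemma nu_ea (hp : m.w0 < p.1) : cx (m.nu ((ends m).Y j p)) ⬝ᵥ ea m j p = 0 ∧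
    cx (m.nu ((ends m).Y j p)) ⬝ᵥ eb m j p = 0 := by
  have h := (P218OP.cd_FY m j hp).differentiableAt (by simp)
  have h0 : ∀ v, ⟪m.nu ((ends m).Y j p), pd (fun q => m.F ((ends m).Y j q)) v p⟫ = 0 := fun v =>
    inner_grad_pd (X := fun q => m.F ((ends m).Y j q)) (m.tube.cd1.differentiable one_ne_zero _) h
      ((Ends.ev_w0 (𝓔 := ends m) hp).mono fun _ hq => m.w_F (m.pol_mem_reg j hq)) v
  rw [← (P218OP.cx_pd m j hp).1, ← (P218OP.cx_pd m j hp).2, cx_dot, cx_dot, h0, h0]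
  simp

lemma th_end (hp : m.w0 < p.1) (h : a + 1 ≤ p.1) : th m ε a ((ends m).Y j p) =
    sgn (ε j) * ks j p.1 * (4 * √p.1 / (1 + tb m j p ^ 2)) * n1 m j p := by
  rw [th_Y m ε hp, st_one h, TE_zero, dotProduct_smul, Frame.Xt, nu_R, sub_self, zero_add, one_mul,
    ← ofReal_re (_ * n1 m j p)]
  congr 1
  simp [d1, rt]
  ring

lemma tB_cone (k : κ) (hp : m.w0 < p.1) : tB m a B ((ends m).Y (.inr k) p) = 0 := by
  simp [tB, Bv_Y m (fun _ => true) hp, dR]

variable (i : ι)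

/-- the component of the tilt along the normal of the cylinder -/
def b1 (B : ι × Fin 2 → ℝ) (i : ι) (θ : ℝ) : ℝ := B (i, 0) * Real.cos θ + B (i, 1) * Real.sin θ

/-- the component of the tilt along the circles -/
def b2 (B : ι × Fin 2 → ℝ) (i : ι) (θ : ℝ) : ℝ := B (i, 1) * Real.cos θ - B (i, 0) * Real.sin θ

lemma skw_X (x θ : ℝ) (t : ℂ) : skw (B (i, 0)) (B (i, 1)) *ᵥ cylF.X x θ t =
    cylF.R θ t *ᵥ ![0, 2 * rt x * b1 B i θ, 2 * rt x * (co t * b2 B i θ)] := by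
  have h := cs_sq θ
  rw [Frame.R_mulVec]
  ext k
  fin_cases k <;> simp [Frame.X_eq, Frame.u, Frame.v, cylF_γ, cylF_n, cylF_T, skw,
    Matrix.mulVec, e3c, ethc, tthc, b1, b2, -ofReal_sin, -ofReal_cos]
  · linear_combination (-(2 * rt x * co t * B (i, 0))) * h
  · linear_combination (-(2 * rt x * co t * B (i, 1))) * h
  · ring

lemma tB_cyl (hp : m.w0 < p.1) (h : a + 2 ≤ p.1) : tB m a B ((ends m).Y (.inl i) p) =
    2 * √p.1 * (b1 B i p.2 * n1 m (.inl i) p + (1 - tb m (.inl i) p ^ 2) /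
      (1 + tb m (.inl i) p ^ 2) * b2 B i p.2 * n2 m (.inl i) p) := by
  rw [tB, Bv_Y m (fun _ => true) hp, st_one (by linarith), XE, rotM_zero, dR_mat, P218OP.tE_zero]
  rw [show fr m (.inl i) = cylF from rfl, skw_X, ← Frame.rot_R _ (mat_orth _), ofReal_one, one_smul,
    show cylF.rot (mat (m.Q i)) (mat_orth _) = fq m (.inl i) from rfl, nu_R,
    ← ofReal_re (2 * _ * _)]
  congr 1
  simp [co, rt]
  ring

lemma pd_tb (hp : m.w0 < p.1) :
    pd (fun q => (tb m (.inl i) q : ℂ)) (1, 0) p =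
      kap p.1 * ((dw (m.U i) p : ℝ) - xf p.1 * m.U i p) ∧
    pd (fun q => (tb m (.inl i) q : ℂ)) (0, 1) p = kap p.1 * (dth (m.U i) p : ℝ) := by
  have h := (m.U_smooth i p hp).of_le one_le_inf
  have h1 := Frame.pd_kap1 (U := fun q => (m.U i q : ℂ))
    (ofRealCLM.contDiff.contDiffAt.comp p h) (pos_of_lt m hp)
  have h2 := pd_clm ofRealCLM (h.differentiableAt one_ne_zero)
  simp only [ofRealCLM_apply] at h2
  rw [h2, h2] at h1
  have e : (fun q => (tb m (.inl i) q : ℂ)) = fun q => kap q.1 * m.U i q :=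
    funext fun q => ofReal_mul _ _
  rw [e]
  exact h1

lemma n2_eq (hp : m.w0 < p.1) :
    dth (m.U i) p * n1 m (.inl i) p + m.U i p * n2 m (.inl i) p = 0 := by
  have h := (nu_ea m (.inl i) hp).2
  have h0 := pos_of_lt m hp
  have h1 := rt_ne h0
  have h2 := one_add_sq_ne (tb m (.inl i) p)
  have h3 : kap p.1 ≠ 0 := ofReal_ne_zero.2 (P218OP.ks_pos (.inl i : ι ⊕ κ) h0).ne'
  have h4 : (fq m (.inl i)).G p.2 (tb m (.inl i) p) = si (tb m (.inl i) p) := cylF_G p.2 _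
  have h5 : (tb m (.inl i) p : ℂ) = kap p.1 * m.U i p := ofReal_mul _ _
  rw [eb, Frame.b, nu_R, (pd_tb m i hp).2, h4] at h
  simp only [d1, si, Matrix.cons_val_zero, Matrix.cons_val_one, Matrix.cons_val] at h
  field_simp at h
  apply ofReal_injective
  push_cast
  apply mul_left_cancel₀ (mul_ne_zero h1 h3)
  linear_combination (1 / 4) * h - rt p.1 * (n2 m (.inl i) p : ℂ) * h5

lemma n0_eq (hp : m.w0 < p.1) : n0 m (.inl i) p * (1 + tb m (.inl i) p ^ 2) +
    ks (.inl i : ι ⊕ κ) p.1 * (4 * (p.1 * dw (m.U i) p) - 2 * m.U i p) * n1 m (.inl i) p = 0 := by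
  have h := (nu_ea m (.inl i) hp).1
  have h0 := pos_of_lt m hp
  have h1 := rt_ne h0
  have h2 := one_add_sq_ne (tb m (.inl i) p)
  have h3 := rt_sq h0.le
  have h4 : (p.1 : ℂ) ≠ 0 := ofReal_ne_zero.2 h0.ne'
  rw [ea, Frame.a, nu_R, (pd_tb m i hp).1] at h
  simp only [d1, xf, Matrix.cons_val_zero, Matrix.cons_val_one, Matrix.cons_val] at h
  field_simp at h
  apply ofReal_injective
  push_cast
  change _ + kap p.1 * _ * _ = _
  apply mul_left_cancel₀ h4
  rw [h3] at h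
  linear_combination h

lemma ks_sqrt {x : ℝ} (hx : 0 < x) : ks (.inl i : ι ⊕ κ) x * (4 * √x) = √2 := by
  have h1 : √(8 * x) = 2 * √2 * √x := by
    rw [show (8 : ℝ) * x = 2 ^ 2 * (2 * x) by ring, Real.sqrt_mul (by norm_num), Real.sqrt_sq
      (by norm_num), Real.sqrt_mul (by norm_num), mul_assoc]
  have h2 := Real.sqrt_pos.2 hx
  have h3 : √2 * √2 = 2 := Real.mul_self_sqrt (by norm_num)
  change (√(8 * x))⁻¹ * _ = _
  rw [h1]
  field_simp
  linarith

lemma th_cyl_eq (hp : m.w0 < p.1) (h : a + 1 ≤ p.1) : th m ε a ((ends m).Y (.inl i) p) =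
    sgn (ε (.inl i)) * (√2 / (1 + tb m (.inl i) p ^ 2)) * n1 m (.inl i) p := by
  rw [th_end m ε _ hp h, ← ks_sqrt (κ := κ) i (pos_of_lt m hp)]
  ring

/-- the bounds on the cylindrical ends -/
lemma ev_cyl : ∀ᶠ p in far, m.w0 < p.1 ∧ 1 / 2 ≤ m.U i p ∧ |dth (m.U i) p| ≤ 1 ∧
    tb m (.inl i) p ^ 2 ≤ 4 ∧ 1 / 9 ≤ |n1 m (.inl i) p| ∧
    |n2 m (.inl i) p| ≤ 2 * |n1 m (.inl i) p| := by
  have e : ∀ v, pd (fun q => m.U i q - 1) v = pd (m.U i) v := fun v => funext fun q => by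
    simp only [pd, fderiv_sub_const]
  have h1 := toZero_iff.1 (m.U_lim i 0 1)
  have h2 := toZero_iff.1 (m.U_lim i 1 0)
  simp only [dw, dth, Function.iterate_one, Function.iterate_zero, id, e, pow_zero, one_mul,
    pow_one] at h1 h2
  filter_upwards [ev_gt m.w0, (P218OP.tendsto_U m i).eventually (Icc_mem_nhds
    (show (1 : ℝ) / 2 < 1 by norm_num) one_lt_two), h1.eventually (Icc_mem_nhds
    (neg_lt_zero.2 one_pos) one_pos), h2.eventually (Icc_mem_nhds (neg_lt_zero.2 one_pos) one_pos)]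
    with p hp k1 k2 k3
  have k4 := P218OP.ks_pos (.inl i : ι ⊕ κ) (pos_of_lt m hp)
  have k5 := P218OP.ks_le (.inl i : ι ⊕ κ) (m.one_le.trans hp.le)
  have k6 : |n2 m (.inl i) p| ≤ 2 * |n1 m (.inl i) p| := by
    have := congrArg abs (eq_neg_of_add_eq_zero_right (n2_eq m i hp))
    rw [abs_neg, abs_mul, abs_mul, abs_of_pos (by linarith [k1.1] : 0 < m.U i p)] at this
    nlinarith [mul_le_mul_of_nonneg_right (show |dth (m.U i) p| ≤ 1 from abs_le.2 k2)
      (abs_nonneg (n1 m (.inl i) p)),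
      mul_le_mul_of_nonneg_right k1.1 (abs_nonneg (n2 m (.inl i) p))]
  have k7 : |n0 m (.inl i) p| ≤ 8 * |n1 m (.inl i) p| := by
    have := congrArg abs (eq_neg_of_add_eq_zero_left (n0_eq m i hp))
    rw [abs_neg, abs_mul, abs_mul, abs_mul, abs_of_pos k4,
      abs_of_pos (by positivity : 0 < 1 + tb m (.inl i) p ^ 2)] at this
    have h8 : |4 * (p.1 * dw (m.U i) p) - 2 * m.U i p| ≤ 8 :=
      abs_le.2 ⟨by linarith [k1.2, show -1 ≤ p.1 * dw (m.U i) p from k3.1],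
        by linarith [k1.1, show p.1 * dw (m.U i) p ≤ 1 from k3.2]⟩
    nlinarith [mul_le_mul_of_nonneg_right (mul_le_mul k5 h8 (abs_nonneg _) zero_le_one)
      (abs_nonneg (n1 m (.inl i) p)),
      mul_nonneg (abs_nonneg (n0 m (.inl i) p)) (sq_nonneg (tb m (.inl i) p))]
  refine ⟨hp, k1.1, abs_le.2 k2, ?_, ?_, k6⟩
  · have : tb m (.inl i) p = ks (.inl i : ι ⊕ κ) p.1 * m.U i p := rfl
    have h9 := mul_le_mul k5 k1.2 (by linarith [k1.1]) zero_le_one
    have h10 := mul_nonneg k4.le (show 0 ≤ m.U i p by linarith [k1.1])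
    rw [this]
    nlinarith
  · by_contra h
    have h3 := sq_sum m (.inl i) hp
    rw [← sq_abs (n0 _ _ _), ← sq_abs (n1 _ _ _), ← sq_abs (n2 _ _ _)] at h3
    nlinarith [abs_nonneg (n0 m (.inl i) p), abs_nonneg (n1 m (.inl i) p),
      abs_nonneg (n2 m (.inl i) p)]

end Vale.Agent.P218CI
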